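import Vale.Agent.P255.LocalCN.Coord
import Vale.Agent.P216.Chord.Main

/-!
P255, small scale: segments of a manifold in coordinates, and the sign of the curvature there.
-/

open Bundle Manifold Set Filter MeasureTheory
open scoped ContDiff Topology NNReal

namespace Vale.Agent.P255.LCN

set_option maxSynthPendingDepth 3

noncomputable section

open P216.Chord

variable {E : Type*} [NormedAddCommGroup E] [NormedSpace ℝ E] [FiniteDimensional ℝ E]
  {M : Type*} [TopologicalSpace M] [ChartedSpace E M] [IsManifold 𝓘(ℝ, E) ∞ M]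
  {g : ContMDiffRiemannianMetric 𝓘(ℝ, E) ∞ E (fun x : M => TangentSpace 𝓘(ℝ, E) x)}

omit [FiniteDimensional ℝ E] in
theorem inner_congr {p q : M} (h : p = q) {u u' w w' : E} (hu : u = u') (hw : w = w') :
    g.inner p u w = g.inner q u' w' := by
  subst h hu hw
  rfl

/-- Nonpositive curvature in every parametrisation. -/
theorem curv_nonpos (hg : HasNonposCurvature g) (P : Par E M) {y : E} (hy : y ∈ P.U) (a b : E) :
    P.pull g y (curv (P.pull g) y a b) a ≤ 0 := by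
  obtain ⟨Q, hQ⟩ : ∃ Q : Par E M, Q = Par.chart (P.ψ y) := ⟨_, rfl⟩
  obtain ⟨U₀, hU₀def⟩ : ∃ U₀ : Set E, U₀ = P.U ∩ P.ψ ⁻¹' Q.W := ⟨_, rfl⟩
  have hU₀ : IsOpen U₀ := hU₀def ▸ P.smoothψ.continuousOn.isOpen_inter_preimage P.openU Q.openW
  have hsub : U₀ ⊆ P.U := hU₀def ▸ inter_subset_left
  have hyW : P.ψ y ∈ Q.W := hQ ▸ mem_extChartAt_source (P.ψ y)
  have hy₀ : y ∈ U₀ := hU₀def ▸ ⟨hy, hyW⟩
  have hG₀ : IsMetricOn U₀ (P.pull g) :=
    ⟨hU₀, (P.isMetricOn (g := g)).smooth.mono hsub,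
      fun z hz => (P.isMetricOn (g := g)).symm z (hsub hz),
      fun z hz => (P.isMetricOn (g := g)).pos z (hsub hz)⟩
  have hmap : ∀ z ∈ U₀, P.ψ z ∈ Q.W := fun z hz => (hU₀def ▸ hz).2
  have hΦ : ContDiffOn ℝ ∞ (fun z => Q.φ (P.ψ z)) U₀ := contMDiffOn_iff_contDiffOn.1
    (Q.smoothφ.comp (P.smoothψ.mono hsub) hmap)
  have hmaps : MapsTo (fun z => Q.φ (P.ψ z)) U₀ Q.U := fun z hz => Q.mapsφ (hmap z hz)
  have hpull : ∀ z ∈ U₀, ∀ u w, Q.pull g (Q.φ (P.ψ z))
      (fderiv ℝ (fun z => Q.φ (P.ψ z)) z u) (fderiv ℝ (fun z => Q.φ (P.ψ z)) z w) =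
      P.pull g z u w := by
    intro z hz u w
    have hψ := (Q.smoothψ.contMDiffAt (Q.openU.mem_nhds (hmaps hz))).mdifferentiableAt (by simp)
    have hd : MDifferentiableAt 𝓘(ℝ, E) 𝓘(ℝ, E) (fun z => Q.φ (P.ψ z)) z :=
      ((hΦ.differentiableOn (by simp)).differentiableAt (hU₀.mem_nhds hz)).mdifferentiableAt
    have hid : P.ψ =ᶠ[𝓝 z] Q.ψ ∘ fun z => Q.φ (P.ψ z) :=
      eventually_of_mem (hU₀.mem_nhds hz) fun r hr => (Q.right _ (hmap r hr)).symm
    have hcomp := hid.mfderiv_eq.trans (mfderiv_comp z hψ hd)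
    rw [mfderiv_eq_fderiv] at hcomp
    rw [P.pull_apply, Q.pull_apply]
    exact inner_congr (Q.right _ (hmap z hz))
      (congrArg (fun T : E →L[ℝ] E => T u) hcomp).symm
      (congrArg (fun T : E →L[ℝ] E => T w) hcomp).symm
  have hcm := curvature_map hG₀ (Q.isMetricOn (g := g)) hΦ hmaps hpull hy₀ a b b
  rw [← curv_eq hG₀ hy₀, ← hpull y hy₀, ← hcm]
  subst hQ
  rw [Par.chart_pull]
  exact hg (P.ψ y) _ _

variable [T2Space M] [CompactSpace M] [PreconnectedSpace M]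

omit [T2Space M] [CompactSpace M] [PreconnectedSpace M] in
/-- The distance is below the coordinate chord, to second order. -/
theorem gdist_le_chord (P : Par E M) {K : Set E} {C : ℝ} (hB : Bd (P.pull g) K C) (hKU : K ⊆ P.U)
    {y z : E} (hy : y ∈ K) (hz : z ∈ K) :
    gdist g (P.ψ y) (P.ψ z) ≤ nrm (P.pull g) y (z - y) + C ^ 2 * ‖z - y‖ ^ 2 := by
  set Δ := z - y with hΔ
  set l : ℝ → E := fun r => y + r • Δ
  have hl : ∀ r ∈ Icc (0 : ℝ) 1, l r ∈ K := fun r hr =>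
    hB.conv.add_smul_sub_mem hy hz hr
  have hld : ∀ r, HasDerivAt l Δ r := fun r => by
    show HasDerivAt (fun r => y + r • Δ) Δ r
    simpa using ((hasDerivAt_id r).smul_const Δ).const_add y
  have hlc : ContDiff ℝ 1 l := contDiff_const.add (contDiff_id.smul contDiff_const)
  have hg' := gedist_le (g := g) (γ := P.ψ ∘ l) (a := 0) (b := 1)
    ((P.smoothψ.of_le (by simp)).comp hlc.contMDiff.contMDiffOn fun r hr => hKU (hl r hr))
    zero_le_one
  have e1 : l 1 = z := by simp [l, hΔ]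
  have e0 : l 0 = y := by simp [l]
  rw [Function.comp_apply, Function.comp_apply, e0, e1] at hg'
  have hC : 0 ≤ C := zero_le_one.trans hB.one
  have hpos : 0 ≤ nrm (P.pull g) y Δ + C ^ 2 * ‖Δ‖ ^ 2 := add_nonneg (nrm_nonneg _ _ _) (by positivity)
  refine gdist_le_of_gedist_le hpos (hg'.trans ?_)
  rw [glen_eq]
  refine (setLIntegral_mono' (g := fun _ => ENNReal.ofReal (nrm (P.pull g) y Δ + C ^ 2 * ‖Δ‖ ^ 2))
    measurableSet_Icc fun r hr => ?_).trans (by simp)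
  refine ENNReal.ofReal_le_ofReal ?_
  rw [P.speed_comp (hKU (hl r hr)) (hld r).differentiableAt, (hld r).deriv]
  show nrm (P.pull g) (l r) Δ ≤ _
  have hn : ‖l r - y‖ ≤ ‖Δ‖ := by
    simp only [l, add_sub_cancel_left, norm_smul, Real.norm_eq_abs, abs_of_nonneg hr.1]
    exact mul_le_of_le_one_left (norm_nonneg _) hr.2
  have h1 := bil_le (P.pull g (l r) - P.pull g y)
    ((hB.glip y hy _ (hl r hr)).trans (mul_le_mul_of_nonneg_left hn hC)) (le_refl ‖Δ‖) (le_refl ‖Δ‖)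
  rw [Real.norm_eq_abs] at h1
  have h2 := sqrt_close hB.one (hB.nonneg (hl r hr) Δ) (hB.nonneg hy Δ) (norm_nonneg Δ)
    (hB.glow y hy Δ) (P := C * ‖Δ‖) (by
      simp only [sub_apply] at h1
      exact h1.trans_eq (by ring))
  have h3 : C * (C * ‖Δ‖) * ‖Δ‖ = C ^ 2 * ‖Δ‖ ^ 2 := by ring
  unfold nrm
  linarith [(abs_le.1 h2).2]

/-- A segment inside a good chart is a coordinate geodesic. -/
theorem IsSegment.exists_sol (P : Par E M) {K : Set E} {C η : ℝ} (hB : Bd (P.pull g) K C)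
    (hKU : K ⊆ P.U) {c : ℝ → M} {L : ℝ} (hc : IsSegment g L c)
    (hK : ∀ s ∈ Icc (0 : ℝ) 1, P.φ (c s) ∈ K)
    (hm : IsMin (P.pull g) P.U ((⊥ : Submodule ℝ E) : Set E) 0 1 L fun s => P.φ (c s))
    (hL : C * L ≤ η) : ∃ v, Sol (P.pull g) K η (fun s => P.φ (c s)) v L := by
  set G := P.pull g
  have hG : IsMetricOn P.U G := P.isMetricOn
  obtain ⟨x, hx⟩ : ∃ x : ℝ → E, x = fun s => P.φ (c s) := ⟨_, rfl⟩
  rw [← hx] at hm ⊢
  have hKx : ∀ s ∈ Icc (0 : ℝ) 1, x s ∈ K := fun s hs => hx ▸ hK s hs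
  have hxU : ∀ s ∈ Icc (0 : ℝ) 1, x s ∈ P.U := fun s hs => hKU (hKx s hs)
  obtain ⟨Q, hQ, -⟩ := hm.exists_momentum hG
  obtain ⟨v, hv⟩ : ∃ v : ℝ → E, v = fun s => vel G (x s) (Q s) := ⟨_, rfl⟩
  have dx : ∀ s ∈ Icc (0 : ℝ) 1, HasDerivWithinAt x (v s) (Icc 0 1) s := fun s hs => by
    rw [hv]; exact (hQ s hs).fst
  have hud : UniqueDiffOn ℝ (Icc (0 : ℝ) 1) := uniqueDiffOn_Icc zero_lt_one
  have hGv : ∀ s ∈ Icc (0 : ℝ) 1, G (x s) (v s) = Q s := fun s hs => by
    rw [hv]; exact hG.apply_vel (hxU s hs) _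
  have dv : ∀ s ∈ Icc (0 : ℝ) 1,
      HasDerivWithinAt v (-(gam G (x s) (v s) (v s))) (Icc 0 1) s := fun s hs => by
    have ho : IsOpen (P.U ×ˢ (univ : Set (E →L[ℝ] ℝ))) := P.openU.prod isOpen_univ
    have h1 := ((hG.contDiffOn_vel.differentiableOn (by simp)).differentiableAt
      (ho.mem_nhds (show (x s, Q s) ∈ P.U ×ˢ (univ : Set (E →L[ℝ] ℝ)) from ⟨hxU s hs, trivial⟩))
      ).hasFDerivAt.comp_hasDerivWithinAt s (hQ s hs)
    obtain ⟨d, hd⟩ : ∃ d, HasDerivWithinAt v d (Icc 0 1) s := ⟨_, by rw [hv]; exact h1⟩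
    suffices d = -(gam G (x s) (v s) (v s)) from this ▸ hd
    refine hG.injective (hxU s hs) (ContinuousLinearMap.ext fun z => ?_)
    have h2 : HasDerivWithinAt (fun r => G (x r) (v r))
        (fderiv ℝ G (x s) (v s) (v s) + G (x s) d) (Icc 0 1) s :=
      ((hB.gder _ (hKx s hs)).comp_hasDerivWithinAt s (dx s hs)).clm_apply hd
    have h3 : HasDerivWithinAt (fun r => G (x r) (v r)) (force G (x s) (v s)) (Icc 0 1) s := by
      have hs2 : (field G (x s, Q s)).2 = force G (x s) (v s) := by rw [hv]; rfl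
      have h' : HasDerivWithinAt Q (field G (x s, Q s)).2 (Icc 0 1) s := (hQ s hs).snd
      rw [hs2] at h'
      exact h'.congr (fun r hr => hGv r hr) (hGv s hs)
    have h4 := congrArg (fun T : E →L[ℝ] ℝ => T z) ((hud s hs).eq_deriv _ h2 h3)
    simp only [add_apply, force_apply] at h4
    rw [map_neg, neg_apply, gam_apply, apply_christoffel hG (hxU s hs)]
    linarith
  have hconst : ∀ s ∈ Icc (0 : ℝ) 1, G (x s) (v s) (v s) = G (x 0) (v 0) (v 0) := fun s hs => by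
    have hd : ∀ r ∈ Icc (0 : ℝ) 1,
        HasDerivWithinAt (fun r => G (x r) (v r) (v r)) 0 (Icc 0 1) r := fun r hr => by
      refine ((((hB.gder _ (hKx r hr)).comp_hasDerivWithinAt r (dx r hr)).clm_apply
        (dv r hr)).clm_apply (dv r hr)).congr_deriv ?_
      simp only [Function.comp_apply, add_apply, map_neg, neg_apply,
        hB.compat _ (hKx r hr), hB.gsymm _ (hKx r hr) _ (v r)]
      ring
    have := norm_image_sub_le_of_norm_deriv_le_segment' hd (fun r _ => norm_zero.le) s hs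
    rw [zero_mul, norm_le_zero_iff, sub_eq_zero] at this
    exact this
  have hder : ∀ r ∈ Ioo (0 : ℝ) 1, deriv x r = v r := fun r hr =>
    ((dx r (Ioo_subset_Icc_self hr)).hasDerivAt (Icc_mem_nhds hr.1 hr.2)).deriv
  have hle : G (x 0) (v 0) (v 0) ≤ L ^ 2 := by
    have hne : (ae (volume.restrict (Ioo (0 : ℝ) 1))).NeBot := by
      rw [ae_neBot, Ne, Measure.restrict_eq_zero]
      simp
    obtain ⟨r, h1, h2⟩ := (hm.speed.and (ae_restrict_mem measurableSet_Ioo)).exists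
    rwa [hder r h2, hconst r (Ioo_subset_Icc_self h2)] at h1
  have hge : L ^ 2 ≤ G (x 0) (v 0) (v 0) := by
    obtain ⟨k, hk⟩ := hm.lip
    have h := hm.le_energy k x hk hxU rfl (by simp)
    rw [intervalIntegral.integral_of_le zero_le_one, integral_Ioc_eq_integral_Ioo,
      setIntegral_congr_fun measurableSet_Ioo (g := fun _ => G (x 0) (v 0) (v 0))
        (fun r hr => by simp only [hder r hr, hconst r (Ioo_subset_Icc_self hr)])] at h
    simpa using h
  have hsp : ∀ s ∈ Icc (0 : ℝ) 1, G (x s) (v s) (v s) = L ^ 2 := fun s hs =>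
    (hconst s hs).trans (le_antisymm hle hge)
  refine ⟨v, hKx, dx, dv, hsp, fun s hs => le_trans ?_ hL, hc.nonneg⟩
  have h := hB.glow _ (hKx s hs) (v s)
  rw [hsp s hs] at h
  have hC := hB.one
  have hCL : 0 ≤ C * L := mul_nonneg (by linarith) hc.nonneg
  refine le_of_pow_le_pow_left₀ two_ne_zero hCL (h.trans ?_)
  rw [mul_pow]
  exact mul_le_mul_of_nonneg_right (le_self_pow₀ hC two_ne_zero) (sq_nonneg L)

end

end Vale.Agent.P255.LCN
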