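import Vale.Agent.P255.Index
import Vale.Agent.P216.Chord.Par

/-!
P255, small scale: the Christoffel symbols as a bilinear map, and uniform bounds for a metric on a
compact convex set of coordinates.
-/

open Set Filter
open scoped ContDiff Topology

namespace Vale.Agent.P255.LCN

set_option maxSynthPendingDepth 3

noncomputable section

open P216.Chord

variable {E : Type*} [NormedAddCommGroup E] [NormedSpace ℝ E]

/-- The lowered Christoffel symbols made from the derivative of the metric. -/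
def low (D : E →L[ℝ] E →L[ℝ] E →L[ℝ] ℝ) : E →L[ℝ] E →L[ℝ] E →L[ℝ] ℝ :=
  (1 / 2 : ℝ) • (D + D.flip -
    ((ContinuousLinearMap.flipₗᵢ ℝ E E ℝ).toContinuousLinearEquiv :
      (E →L[ℝ] E →L[ℝ] ℝ) →L[ℝ] (E →L[ℝ] E →L[ℝ] ℝ)).comp D.flip)

/-- The Christoffel symbols as a bilinear map. -/
def gam (G : E → E →L[ℝ] E →L[ℝ] ℝ) (y : E) : E →L[ℝ] E →L[ℝ] E :=
  (ContinuousLinearMap.compL ℝ E (E →L[ℝ] ℝ) E (G y).inverse).comp (low (fderiv ℝ G y))

theorem gam_apply (G : E → E →L[ℝ] E →L[ℝ] ℝ) (y u w : E) :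
    gam G y u w = christoffel G y u w := rfl

/-- The curvature written with the bilinear Christoffel symbols. -/
def curv (G : E → E →L[ℝ] E →L[ℝ] ℝ) (y u v : E) : E :=
  fderiv ℝ (gam G) y u v v - fderiv ℝ (gam G) y v u v
    + gam G y u (gam G y v v) - gam G y v (gam G y u v)

variable [FiniteDimensional ℝ E] {U : Set E} {G : E → E →L[ℝ] E →L[ℝ] ℝ}

theorem contDiffOn_gam (hG : IsMetricOn U G) : ContDiffOn ℝ ∞ (gam G) U := by
  have h1 : ContDiffOn ℝ ∞ (fun y => ContinuousLinearMap.inverse (G y)) U := by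
    intro y hy
    obtain ⟨e, he⟩ := hG.exists_equiv hy
    have hi : ContDiffAt ℝ ∞ ContinuousLinearMap.inverse (G y) := by
      rw [← he]; exact contDiffAt_map_inverse e
    exact (hi.comp y (hG.smooth.contDiffAt (hG.isOpen.mem_nhds hy))).contDiffWithinAt
  have hD : ContDiffOn ℝ ∞ (fun y => fderiv ℝ G y) U :=
    hG.smooth.fderiv_of_isOpen hG.isOpen le_rfl
  have hlow : ContDiff ℝ ∞ (low (E := E)) := by
    have hf : ContDiff ℝ ∞ fun D : E →L[ℝ] E →L[ℝ] E →L[ℝ] ℝ => D.flip :=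
      (ContinuousLinearMap.flipₗᵢ ℝ E E (E →L[ℝ] ℝ)).contDiff
    exact ((contDiff_id.add hf).sub (contDiff_const.clm_comp hf)).const_smul (1 / 2 : ℝ)
  exact ((contDiff_const (c := ContinuousLinearMap.compL ℝ E (E →L[ℝ] ℝ) E)).contDiffOn.clm_apply
    h1).clm_comp (hlow.comp_contDiffOn hD)

theorem curv_eq (hG : IsMetricOn U G) {y : E} (hy : y ∈ U) (u v : E) :
    curvature G y u v v = curv G y u v := by
  have key : ∀ a w z : E,
      fderiv ℝ (fun x => christoffel G x a w) y z = fderiv ℝ (gam G) y z a w := by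
    intro a w z
    have h := ((contDiffOn_gam hG).differentiableOn (by simp)).differentiableAt
      (hG.isOpen.mem_nhds hy)
    have := ((h.hasFDerivAt.clm_apply (hasFDerivAt_const a y)).clm_apply
      (hasFDerivAt_const w y)).fderiv
    simp only [gam_apply] at this
    rw [this]
    simp
  simp only [curvature, curv, key, gam_apply]

omit [FiniteDimensional ℝ E] in
theorem fderiv_symm (hG : IsMetricOn U G) {y : E} (hy : y ∈ U) (z u w : E) :
    fderiv ℝ G y z u w = fderiv ℝ G y z w u := by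
  have h := ((hG.smooth.differentiableOn (by simp)).differentiableAt
    (hG.isOpen.mem_nhds hy)).hasFDerivAt
  have h1 := (h.clm_apply (hasFDerivAt_const u y)).clm_apply (hasFDerivAt_const w y)
  have h2 := (h.clm_apply (hasFDerivAt_const w y)).clm_apply (hasFDerivAt_const u y)
  have he : (fun x => G x u w) =ᶠ[𝓝 y] fun x => G x w u :=
    eventually_of_mem (hG.isOpen.mem_nhds hy) fun x hx => hG.symm x hx u w
  have := congrArg (fun T : E →L[ℝ] ℝ => T z) ((h1.congr_of_eventuallyEq he.symm).unique h2)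
  simpa using this

/-- Uniform bounds for the metric and its Christoffel symbols on a set `K`. -/
structure Bd (G : E → E →L[ℝ] E →L[ℝ] ℝ) (K : Set E) (C : ℝ) : Prop where
  one : 1 ≤ C
  conv : Convex ℝ K
  gder : ∀ y ∈ K, HasFDerivAt G (fderiv ℝ G y) y
  bder : ∀ y ∈ K, HasFDerivAt (gam G) (fderiv ℝ (gam G) y) y
  gsymm : ∀ y ∈ K, ∀ u w, G y u w = G y w u
  bsymm : ∀ y ∈ K, ∀ u w, gam G y u w = gam G y w u
  compat : ∀ y ∈ K, ∀ u w v, fderiv ℝ G y u w v = G y (gam G y u w) v + G y w (gam G y u v)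
  gle : ∀ y ∈ K, ‖G y‖ ≤ C
  ble : ∀ y ∈ K, ‖gam G y‖ ≤ C
  dble : ∀ y ∈ K, ‖fderiv ℝ (gam G) y‖ ≤ C
  glow : ∀ y ∈ K, ∀ v, ‖v‖ ^ 2 ≤ C * G y v v
  glip : ∀ y ∈ K, ∀ z ∈ K, ‖G z - G y‖ ≤ C * ‖z - y‖
  blip : ∀ y ∈ K, ∀ z ∈ K, ‖gam G z - gam G y‖ ≤ C * ‖z - y‖
  gtay : ∀ y ∈ K, ∀ z ∈ K, ‖G z - G y - fderiv ℝ G y (z - y)‖ ≤ C * ‖z - y‖ ^ 2
  btay : ∀ y ∈ K, ∀ z ∈ K,
    ‖gam G z - gam G y - fderiv ℝ (gam G) y (z - y)‖ ≤ C * ‖z - y‖ ^ 2

omit [FiniteDimensional ℝ E] in
/-- A first order Taylor bound from the continuity of the second derivative. -/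
theorem taylor_bounds {F : Type*} [NormedAddCommGroup F] [NormedSpace ℝ F] {f : E → F}
    {K : Set E} (hU : IsOpen U) (hf : ContDiffOn ℝ ∞ f U) (hK : IsCompact K) (hc : Convex ℝ K)
    (hKU : K ⊆ U) :
    ∃ C : ℝ, 0 ≤ C ∧ (∀ y ∈ K, ‖f y‖ ≤ C) ∧ (∀ y ∈ K, ‖fderiv ℝ f y‖ ≤ C) ∧
      (∀ y ∈ K, ∀ z ∈ K, ‖f z - f y‖ ≤ C * ‖z - y‖) ∧
      ∀ y ∈ K, ∀ z ∈ K, ‖f z - f y - fderiv ℝ f y (z - y)‖ ≤ C * ‖z - y‖ ^ 2 := by
  have hf' : ContDiffOn ℝ ∞ (fderiv ℝ f) U := hf.fderiv_of_isOpen hU le_rfl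
  obtain ⟨C₀, h0⟩ := hK.exists_bound_of_continuousOn (hf.continuousOn.mono hKU)
  obtain ⟨C₁, h1⟩ := hK.exists_bound_of_continuousOn (hf'.continuousOn.mono hKU)
  obtain ⟨C₂, h2⟩ := hK.exists_bound_of_continuousOn
    ((hf'.continuousOn_fderiv_of_isOpen hU (by simp)).mono hKU)
  refine ⟨max (max C₀ C₁) (max C₂ 0), le_max_of_le_right (le_max_right _ _), fun y hy =>
    (h0 y hy).trans (le_max_of_le_left (le_max_left _ _)), fun y hy =>
    (h1 y hy).trans (le_max_of_le_left (le_max_right _ _)), fun y hy z hz => ?_, fun y hy z hz => ?_⟩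
  · exact hc.norm_image_sub_le_of_norm_fderiv_le
      (fun x hx => (hf.differentiableOn (by simp)).differentiableAt (hU.mem_nhds (hKU hx)))
      (fun x hx => (h1 x hx).trans (le_max_of_le_left (le_max_right _ _))) hy hz
  · have hseg : segment ℝ y z ⊆ K := hc.segment_subset hy hz
    have hD : ∀ x ∈ segment ℝ y z, ‖fderiv ℝ f x - fderiv ℝ f y‖ ≤
        max (max C₀ C₁) (max C₂ 0) * ‖z - y‖ := fun x hx => by
      refine (hc.norm_image_sub_le_of_norm_fderiv_le
        (fun w hw => (hf'.differentiableOn (by simp)).differentiableAt (hU.mem_nhds (hKU hw)))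
        (fun w hw => (h2 w hw).trans (le_max_of_le_right (le_max_left _ _))) hy (hseg hx)).trans
        (mul_le_mul_of_nonneg_left ?_ (le_max_of_le_right (le_max_right _ _)))
      exact norm_sub_le_of_mem_segment hx
    rw [sq, ← mul_assoc]
    exact (convex_segment y z).norm_image_sub_le_of_norm_fderiv_le'
      (fun x hx => (hf.differentiableOn (by simp)).differentiableAt (hU.mem_nhds (hKU (hseg hx))))
      hD (left_mem_segment ℝ y z) (right_mem_segment ℝ y z)

theorem exists_bd (hG : IsMetricOn U G) {K : Set E} (hK : IsCompact K) (hc : Convex ℝ K)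
    (hKU : K ⊆ U) : ∃ C, Bd G K C := by
  obtain ⟨A, hA, a0, a1, a2, a3⟩ := taylor_bounds hG.isOpen hG.smooth hK hc hKU
  obtain ⟨B, hB, b0, b1, b2, b3⟩ := taylor_bounds hG.isOpen (contDiffOn_gam hG) hK hc hKU
  -- uniform positivity
  obtain ⟨k, hk, hlow⟩ : ∃ k : ℝ, 0 ≤ k ∧ ∀ y ∈ K, ∀ v, ‖v‖ ^ 2 ≤ k * G y v v := by
    rcases (K ×ˢ Metric.sphere (0 : E) 1).eq_empty_or_nonempty with he | hne
    · refine ⟨0, le_rfl, fun y hy v => ?_⟩
      have : v = 0 := by
        by_contra hv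
        exact (Set.eq_empty_iff_forall_notMem.1 he) (y, ‖v‖⁻¹ • v)
          ⟨hy, by simp [norm_smul, hv]⟩
      simp [this]
    · have hcont : ContinuousOn (fun q : E × E => G q.1 q.2 q.2) (K ×ˢ Metric.sphere (0 : E) 1) :=
        (((hG.smooth.continuousOn.mono hKU).comp continuousOn_fst fun q hq => hq.1).clm_apply
          continuousOn_snd).clm_apply continuousOn_snd
      obtain ⟨q, hq, hmin⟩ := (hK.prod (isCompact_sphere _ _)).exists_isMinOn hne hcont
      have hq0 : q.2 ≠ 0 := fun h => by simpa [h] using hq.2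
      have hpos := hG.pos q.1 (hKU hq.1) q.2 hq0
      refine ⟨(G q.1 q.2 q.2)⁻¹, (inv_pos.2 hpos).le, fun y hy v => ?_⟩
      rcases eq_or_ne v 0 with rfl | hv
      · simp
      have := hmin (a := (y, ‖v‖⁻¹ • v)) ⟨hy, by simp [norm_smul, hv]⟩
      simp only [map_smul, smul_apply, smul_eq_mul, Set.mem_ofPred_eq] at this
      have hn : 0 < ‖v‖ := norm_pos_iff.2 hv
      rw [← mul_assoc, ← mul_inv, ← sq, le_inv_mul_iff₀ (by positivity)] at this
      rw [le_inv_mul_iff₀ hpos]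
      linarith
  have hC : 0 ≤ A + B + k := by positivity
  refine ⟨A + B + k + 1, by linarith, hc, fun y hy => ?_, fun y hy => ?_,
    fun y hy => hG.symm y (hKU hy), fun y hy u w => ?_, fun y hy u w v => ?_,
    fun y hy => (a0 y hy).trans (by linarith), fun y hy => (b0 y hy).trans (by linarith),
    fun y hy => (b1 y hy).trans (by linarith), fun y hy v => ?_,
    fun y hy z hz => (a2 y hy z hz).trans (mul_le_mul_of_nonneg_right (by linarith) (norm_nonneg _)),
    fun y hy z hz => (b2 y hy z hz).trans (mul_le_mul_of_nonneg_right (by linarith) (norm_nonneg _)),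
    fun y hy z hz => (a3 y hy z hz).trans (mul_le_mul_of_nonneg_right (by linarith) (sq_nonneg _)),
    fun y hy z hz => (b3 y hy z hz).trans (mul_le_mul_of_nonneg_right (by linarith) (sq_nonneg _))⟩
  · exact ((hG.smooth.differentiableOn (by simp)).differentiableAt
      (hG.isOpen.mem_nhds (hKU hy))).hasFDerivAt
  · exact (((contDiffOn_gam hG).differentiableOn (by simp)).differentiableAt
      (hG.isOpen.mem_nhds (hKU hy))).hasFDerivAt
  · rw [gam_apply, gam_apply, christoffel_symm hG (hKU hy)]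
  · rw [hG.symm y (hKU hy) w, gam_apply, gam_apply, apply_christoffel hG (hKU hy),
      apply_christoffel hG (hKU hy), fderiv_symm hG (hKU hy) u v w]
    ring
  · refine (hlow y hy v).trans (mul_le_mul_of_nonneg_right (by linarith) ?_)
    exact hG.nonneg (hKU hy) v

end

end Vale.Agent.P255.LCN
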