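import Vale.Agent.P255.LocalCN.Basic

/-!
P255, small scale: two nearby geodesics in coordinates of nonpositive curvature.
-/

open Set Filter
open scoped ContDiff Topology

namespace Vale.Agent.P255.LCN

set_option maxSynthPendingDepth 3

noncomputable section

open P216.Chord

variable {E : Type*} [NormedAddCommGroup E] [NormedSpace ℝ E]

theorem bil_le {F : Type*} [NormedAddCommGroup F] [NormedSpace ℝ F] (B : E →L[ℝ] E →L[ℝ] F)
    {C a b : ℝ} {u w : E} (hB : ‖B‖ ≤ C) (hu : ‖u‖ ≤ a) (hw : ‖w‖ ≤ b) :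
    ‖B u w‖ ≤ C * a * b := by
  refine (B.le_opNorm₂ u w).trans ?_
  have := (norm_nonneg B).trans hB
  have := (norm_nonneg u).trans hu
  gcongr

/-- A function with second derivative at least `c` is below the mean at the midpoint. -/
theorem mid_le {f f' f'' : ℝ → ℝ} {c : ℝ}
    (h1 : ∀ s ∈ Icc (0 : ℝ) 1, HasDerivWithinAt f (f' s) (Icc 0 1) s)
    (h2 : ∀ s ∈ Icc (0 : ℝ) 1, HasDerivWithinAt f' (f'' s) (Icc 0 1) s)
    (h3 : ∀ s ∈ Icc (0 : ℝ) 1, c ≤ f'' s) :
    f (1 / 2) ≤ f 0 / 2 + f 1 / 2 - c / 8 := by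
  have hi : interior (Icc (0 : ℝ) 1) = Ioo 0 1 := interior_Icc
  have hg : ConvexOn ℝ (Icc (0 : ℝ) 1) fun s => f s - c / 2 * s ^ 2 := by
    refine convexOn_of_hasDerivWithinAt2_nonneg (convex_Icc 0 1) (f' := fun s => f' s - c * s)
      (f'' := fun s => f'' s - c) ?_ ?_ ?_ ?_
    · exact ContinuousOn.sub (fun s hs => (h1 s hs).continuousWithinAt) (by fun_prop)
    · intro s hs
      rw [hi] at hs ⊢
      have hq : HasDerivAt (fun r => c / 2 * r ^ 2) (c * s) s := by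
        refine ((hasDerivAt_pow 2 s).const_mul (c / 2)).congr_deriv ?_
        ring
      exact ((h1 s (Ioo_subset_Icc_self hs)).mono Ioo_subset_Icc_self).sub hq.hasDerivWithinAt
    · intro s hs
      rw [hi] at hs ⊢
      have hq : HasDerivAt (fun r => c * r) c s := by simpa using (hasDerivAt_id s).const_mul c
      exact ((h2 s (Ioo_subset_Icc_self hs)).mono Ioo_subset_Icc_self).sub hq.hasDerivWithinAt
    · intro s hs
      linarith [h3 s (interior_subset hs)]
  have := hg.2 (x := 0) ⟨le_rfl, zero_le_one⟩ (y := 1) ⟨zero_le_one, le_rfl⟩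
    (show (0 : ℝ) ≤ 1 / 2 by norm_num) (show (0 : ℝ) ≤ 1 / 2 by norm_num) (by norm_num)
  norm_num at this
  linarith

variable {G : E → E →L[ℝ] E →L[ℝ] ℝ} {K : Set E} {C η : ℝ}

/-- A geodesic in coordinates with speed `L` and small velocity. -/
structure Sol (G : E → E →L[ℝ] E →L[ℝ] ℝ) (K : Set E) (η : ℝ) (x v : ℝ → E) (L : ℝ) : Prop where
  mem : ∀ s ∈ Icc (0 : ℝ) 1, x s ∈ K
  dx : ∀ s ∈ Icc (0 : ℝ) 1, HasDerivWithinAt x (v s) (Icc 0 1) s
  dv : ∀ s ∈ Icc (0 : ℝ) 1, HasDerivWithinAt v (-(gam G (x s) (v s) (v s))) (Icc 0 1) s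
  speed : ∀ s ∈ Icc (0 : ℝ) 1, G (x s) (v s) (v s) = L ^ 2
  small : ∀ s ∈ Icc (0 : ℝ) 1, ‖v s‖ ≤ η
  nonneg : 0 ≤ L

theorem Bd.nrm_le (hB : Bd G K C) {y : E} (hy : y ∈ K) (v : E) : nrm G y v ≤ C * ‖v‖ := by
  have hC : 0 ≤ C := zero_le_one.trans hB.one
  refine Real.sqrt_le_iff.2 ⟨by positivity, ?_⟩
  calc G y v v ≤ ‖G y v v‖ := Real.le_norm_self _
    _ ≤ C * ‖v‖ * ‖v‖ := bil_le _ (hB.gle y hy) le_rfl le_rfl
    _ ≤ (C * ‖v‖) ^ 2 := by nlinarith [mul_nonneg hC (mul_self_nonneg ‖v‖), hB.one]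

theorem Bd.nonneg (hB : Bd G K C) {y : E} (hy : y ∈ K) (v : E) : 0 ≤ G y v v := by
  have := hB.glow y hy v
  have := hB.one
  by_contra h
  nlinarith [sq_nonneg ‖v‖]

theorem Bd.inner_le (hB : Bd G K C) {y : E} (hy : y ∈ K) (u w : E) :
    G y u w ≤ nrm G y u * nrm G y w := by
  rw [nrm, nrm, ← Real.sqrt_mul (hB.nonneg hy u)]
  refine Real.le_sqrt_of_sq_le ?_
  have h : ∀ r : ℝ, 0 ≤ G y u u - 2 * r * G y u w + r ^ 2 * G y w w := fun r => by
    have := hB.nonneg hy (u - r • w)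
    simp only [map_sub, map_smul, sub_apply, smul_apply, smul_eq_mul, hB.gsymm y hy w u] at this
    linarith
  have := discrim_le_zero (a := G y w w) (b := -(2 * G y u w)) (c := G y u u)
    fun r => by linarith [h r]
  rw [discrim] at this
  linarith

theorem Bd.nrm_add_le (hB : Bd G K C) {y : E} (hy : y ∈ K) (u w : E) :
    nrm G y (u + w) ≤ nrm G y u + nrm G y w := by
  refine Real.sqrt_le_iff.2 ⟨add_nonneg (nrm_nonneg _ _ _) (nrm_nonneg _ _ _), ?_⟩
  have h1 := hB.inner_le hy u w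
  have h2 : nrm G y u ^ 2 = G y u u := Real.sq_sqrt (hB.nonneg hy u)
  have h3 : nrm G y w ^ 2 = G y w w := Real.sq_sqrt (hB.nonneg hy w)
  simp only [map_add, add_apply, hB.gsymm y hy w u]
  nlinarith

/-- Square roots of close quadratic values. -/
theorem sqrt_close {a b n P : ℝ} (hC : 1 ≤ C) (ha : 0 ≤ a) (hb0 : 0 ≤ b) (hn : 0 ≤ n)
    (hb : n ^ 2 ≤ C * b) (hab : |a - b| ≤ P * n ^ 2) : |√a - √b| ≤ C * P * n := by
  rcases hn.eq_or_lt with h | h
  · subst h
    have he : a = b := by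
      have := abs_nonneg (a - b)
      have : |a - b| = 0 := by linarith
      exact sub_eq_zero.1 (abs_eq_zero.1 this)
    simp [he]
  have hsa := Real.sq_sqrt ha
  have hsb := Real.sq_sqrt hb0
  have h1 : n ≤ C * √b := by
    refine le_of_pow_le_pow_left₀ two_ne_zero (by positivity) ?_
    rw [mul_pow, hsb]
    nlinarith
  have h2 : |√a - √b| * (√a + √b) = |a - b| := by
    rw [← abs_of_nonneg (show 0 ≤ √a + √b by positivity), ← abs_mul]
    congr 1
    linarith
  refine le_of_mul_le_mul_right ?_ h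
  calc |√a - √b| * n ≤ |√a - √b| * (C * (√a + √b)) := by
        refine mul_le_mul_of_nonneg_left (h1.trans ?_) (abs_nonneg _)
        exact mul_le_mul_of_nonneg_left (by linarith [Real.sqrt_nonneg a]) (by linarith)
    _ = C * |a - b| := by rw [mul_left_comm, h2]
    _ ≤ C * (P * n ^ 2) := mul_le_mul_of_nonneg_left hab (by linarith)
    _ = C * P * n * n := by ring

variable {x v y w : ℝ → E} {L L' H : ℝ}

/-- A priori bound: geodesics with close ends are close with their velocities. -/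
theorem Bd.apriori (hB : Bd G K C) (hη1 : η ≤ 1) (hηC : C * η ≤ 1 / 40)
    (hx : Sol G K η x v L) (hy : Sol G K η y w L') (h0 : ‖y 0 - x 0‖ ≤ H) (h1 : ‖y 1 - x 1‖ ≤ H) :
    ∀ s ∈ Icc (0 : ℝ) 1, ‖y s - x s‖ ≤ 4 * H ∧ ‖w s - v s‖ ≤ 3 * H := by
  have hC : 0 ≤ C := zero_le_one.trans hB.one
  have hη0 : 0 ≤ η := (norm_nonneg _).trans (hx.small 0 ⟨le_rfl, zero_le_one⟩)
  have hH : 0 ≤ H := (norm_nonneg _).trans h0
  have hcont : ContinuousOn (fun s => ‖w s - v s‖) (Icc 0 1) :=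
    (ContinuousOn.sub (fun s hs => (hy.dv s hs).continuousWithinAt)
      fun s hs => (hx.dv s hs).continuousWithinAt).norm
  obtain ⟨s₀, hs₀, hmax⟩ := isCompact_Icc.exists_isMaxOn (nonempty_Icc.2 zero_le_one) hcont
  set A := ‖w s₀ - v s₀‖ with hA
  have hA0 : 0 ≤ A := norm_nonneg _
  have hmax' : ∀ s ∈ Icc (0 : ℝ) 1, ‖w s - v s‖ ≤ A := fun s hs => hmax hs
  have hd : ∀ s ∈ Icc (0 : ℝ) 1, ‖y s - x s‖ ≤ H + A := fun s hs => by
    have h := norm_image_sub_le_of_norm_deriv_le_segment' (f := fun r => y r - x r)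
      (f' := fun r => w r - v r) (fun r hr => (hy.dx r hr).sub (hx.dx r hr))
      (fun r hr => hmax' r (Ico_subset_Icc_self hr)) s hs
    have h' := norm_le_insert' (y s - x s) (y 0 - x 0)
    have : A * (s - 0) ≤ A := mul_le_of_le_one_right hA0 (by linarith [hs.2])
    linarith
  have hdd : ∀ s ∈ Icc (0 : ℝ) 1,
      ‖-(gam G (y s) (w s) (w s)) - -(gam G (x s) (v s) (v s))‖ ≤ (H + A) / 40 + A / 20 := by
    intro s hs
    have e : -(gam G (y s) (w s) (w s)) - -(gam G (x s) (v s) (v s)) =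
        -((gam G (y s) - gam G (x s)) (w s) (w s) + gam G (x s) (w s - v s) (w s) +
          gam G (x s) (v s) (w s - v s)) := by
      simp only [sub_apply, map_sub]
      abel
    rw [e, norm_neg]
    refine (norm_add₃_le).trans ?_
    have b1 := bil_le (gam G (y s) - gam G (x s))
      ((hB.blip _ (hx.mem s hs) _ (hy.mem s hs)).trans (mul_le_mul_of_nonneg_left (hd s hs) hC))
      (hy.small s hs) (hy.small s hs)
    have b2 := bil_le (gam G (x s)) (hB.ble _ (hx.mem s hs)) (hmax' s hs) (hy.small s hs)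
    have b3 := bil_le (gam G (x s)) (hB.ble _ (hx.mem s hs)) (hx.small s hs) (hmax' s hs)
    have q1 : C * η * η ≤ 1 / 40 := le_trans (mul_le_of_le_one_right (by positivity) hη1) hηC
    have q2 := mul_le_mul_of_nonneg_right q1 (show 0 ≤ H + A by positivity)
    have q3 := mul_le_mul_of_nonneg_right hηC hA0
    linarith
  have hM : ∀ s ∈ Icc (0 : ℝ) 1, ‖(w s - v s) - (w s₀ - v s₀)‖ ≤ (H + A) / 40 + A / 20 := by
    intro s hs
    have h := (convex_Icc (0 : ℝ) 1).norm_image_sub_le_of_norm_hasDerivWithin_le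
      (f := fun r => w r - v r) (fun r hr => (hy.dv r hr).sub (hx.dv r hr)) hdd hs₀ hs
    refine h.trans (mul_le_of_le_one_right (by positivity) ?_)
    rw [Real.norm_eq_abs, abs_le]
    constructor <;> linarith [hs.1, hs.2, hs₀.1, hs₀.2]
  have h := norm_image_sub_le_of_norm_deriv_le_segment'
    (f := fun r => (y r - x r) - r • (w s₀ - v s₀))
    (f' := fun r => (w r - v r) - (w s₀ - v s₀))
    (fun r hr => ((hy.dx r hr).sub (hx.dx r hr)).sub
      (by simpa using ((hasDerivAt_id r).smul_const (w s₀ - v s₀)).hasDerivWithinAt))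
    (fun r hr => hM r (Ico_subset_Icc_self hr)) 1 ⟨zero_le_one, le_rfl⟩
  simp only [one_smul, zero_smul, sub_zero, mul_one] at h
  have hA1 : A ≤ 2 * H + ((H + A) / 40 + A / 20) := by
    have e : w s₀ - v s₀ = (y 1 - x 1) - (y 0 - x 0) -
        ((y 1 - x 1) - (w s₀ - v s₀) - (y 0 - x 0)) := by abel
    have t1 := norm_sub_le ((y 1 - x 1) - (y 0 - x 0))
      ((y 1 - x 1) - (w s₀ - v s₀) - (y 0 - x 0))
    have t2 := norm_sub_le (y 1 - x 1) (y 0 - x 0)
    rw [← e] at t1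
    linarith
  intro s hs
  exact ⟨(hd s hs).trans (by linarith), (hmax' s hs).trans (by linarith)⟩

/-- The derivative of the product of two fields along a curve, with covariant derivatives. -/
theorem Bd.hasDeriv_inner (hB : Bd G K C) {s : ℝ} {ξ ζ : ℝ → E} {dξ dζ : E}
    (hs : s ∈ Icc (0 : ℝ) 1) (hx : Sol G K η x v L)
    (h1 : HasDerivWithinAt ξ dξ (Icc 0 1) s) (h2 : HasDerivWithinAt ζ dζ (Icc 0 1) s) :
    HasDerivWithinAt (fun r => G (x r) (ξ r) (ζ r))
      (G (x s) (dξ + gam G (x s) (v s) (ξ s)) (ζ s) +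
        G (x s) (ξ s) (dζ + gam G (x s) (v s) (ζ s))) (Icc 0 1) s := by
  refine ((((hB.gder _ (hx.mem s hs)).comp_hasDerivWithinAt s (hx.dx s hs)).clm_apply
    h1).clm_apply h2).congr_deriv ?_
  simp only [Function.comp_apply, map_add, add_apply, hB.compat _ (hx.mem s hs)]
  ring

/-- The joint inequality for two geodesics with close ends. -/
theorem Bd.pair (hB : Bd G K C) (hcur : ∀ z ∈ K, ∀ a b, G z (curv G z a b) a ≤ 0) (hη1 : η ≤ 1)
    (hηC : C * η ≤ 1 / 40) (hx : Sol G K η x v L) (hy : Sol G K η y w L') (hH1 : H ≤ 1)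
    (h0 : ‖y 0 - x 0‖ ≤ H) (h1 : ‖y 1 - x 1‖ ≤ H) :
    G (x (1 / 2)) (y (1 / 2) - x (1 / 2)) (y (1 / 2) - x (1 / 2)) ≤
      G (x 0) (y 0 - x 0) (y 0 - x 0) / 2 + G (x 1) (y 1 - x 1) (y 1 - x 1) / 2 -
        (L' - L) ^ 2 / 4 + 750 * C ^ 8 * H ^ 3 := by
  have hC1 := hB.one
  have hC : 0 ≤ C := zero_le_one.trans hC1
  have hη0 : 0 ≤ η := (norm_nonneg _).trans (hx.small 0 ⟨le_rfl, zero_le_one⟩)
  have hH : 0 ≤ H := (norm_nonneg _).trans h0
  have ap := hB.apriori hη1 hηC hx hy h0 h1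
  obtain ⟨δ, hδ⟩ : ∃ δ : ℝ → E, δ = fun r => y r - x r := ⟨_, rfl⟩
  obtain ⟨e, he⟩ : ∃ e : ℝ → E, e = fun r => w r - v r := ⟨_, rfl⟩
  obtain ⟨ξ, hξ⟩ : ∃ ξ : ℝ → E, ξ = fun r => e r + gam G (x r) (δ r) (v r) := ⟨_, rfl⟩
  obtain ⟨R, hR⟩ : ∃ R : ℝ → E, R = fun r =>
      -((gam G (y r) - gam G (x r) - fderiv ℝ (gam G) (x r) (δ r)) (w r) (w r) +
        fderiv ℝ (gam G) (x r) (δ r) (e r) (w r) + fderiv ℝ (gam G) (x r) (δ r) (v r) (e r) +
        gam G (x r) (e r) (e r)) := ⟨_, rfl⟩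
  have hδd : ∀ s ∈ Icc (0 : ℝ) 1, HasDerivWithinAt δ (e s) (Icc 0 1) s := fun s hs => by
    rw [hδ, he]; exact (hy.dx s hs).sub (hx.dx s hs)
  have hfd : ∀ s ∈ Icc (0 : ℝ) 1, HasDerivWithinAt (fun r => G (x r) (δ r) (δ r))
      (2 * G (x s) (ξ s) (δ s)) (Icc 0 1) s := fun s hs => by
    have m := hx.mem s hs
    refine (hB.hasDeriv_inner hs hx (hδd s hs) (hδd s hs)).congr_deriv ?_
    rw [hξ]
    simp only [hB.bsymm _ m (v s) (δ s)]
    rw [hB.gsymm _ m (δ s)]
    ring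
  obtain ⟨f2, hf2⟩ : ∃ f2 : ℝ → ℝ, f2 = fun s => 2 *
      (G (x s) (R s - curv G (x s) (δ s) (v s)) (δ s) + G (x s) (ξ s) (ξ s)) := ⟨_, rfl⟩
  have hfd2 : ∀ s ∈ Icc (0 : ℝ) 1, HasDerivWithinAt (fun r => 2 * G (x r) (ξ r) (δ r))
      (f2 s) (Icc 0 1) s := fun s hs => by
    have m := hx.mem s hs
    have hξd : HasDerivWithinAt ξ ((-(gam G (y s) (w s) (w s)) - -(gam G (x s) (v s) (v s))) +
        ((fderiv ℝ (gam G) (x s) (v s) (δ s) + gam G (x s) (e s)) (v s) +
          gam G (x s) (δ s) (-(gam G (x s) (v s) (v s))))) (Icc 0 1) s := by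
      rw [hξ]
      have he' : HasDerivWithinAt e
          (-(gam G (y s) (w s) (w s)) - -(gam G (x s) (v s) (v s))) (Icc 0 1) s := by
        rw [he]; exact (hy.dv s hs).sub (hx.dv s hs)
      exact he'.add ((((hB.bder _ m).comp_hasDerivWithinAt s (hx.dx s hs)).clm_apply
        (hδd s hs)).clm_apply (hx.dv s hs))
    refine ((hB.hasDeriv_inner hs hx hξd (hδd s hs)).const_mul 2).congr_deriv ?_
    rw [hf2]
    congr 1
    congr 1
    · congr 2
      simp only [hξ, hR, curv, he, map_neg, map_add, add_apply, sub_apply, map_sub,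
        hB.bsymm _ m (w s) (v s)]
      abel
    · congr 1
      simp only [hξ, hB.bsymm _ m (v s) (δ s)]
  have hbound : ∀ s ∈ Icc (0 : ℝ) 1, 2 * (L' - L) ^ 2 - 6000 * C ^ 8 * H ^ 3 ≤ f2 s := by
    intro s hs
    have m := hx.mem s hs
    have m' := hy.mem s hs
    obtain ⟨a1, a2⟩ := ap s hs
    have a1' : ‖δ s‖ ≤ 4 * H := by rw [hδ]; exact a1
    have a2' : ‖e s‖ ≤ 3 * H := by rw [he]; exact a2
    have p1 : C ≤ C ^ 8 := le_self_pow₀ hC1 (by norm_num)
    have p2 : C ^ 2 ≤ C ^ 8 := pow_le_pow_right₀ hC1 (by norm_num)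
    have p4 : C ^ 4 ≤ C ^ 8 := pow_le_pow_right₀ hC1 (by norm_num)
    have hη2 : η * η ≤ 1 := mul_le_one₀ hη1 hη0 hη1
    -- the remainder
    have r1 : ‖(gam G (y s) - gam G (x s) - fderiv ℝ (gam G) (x s) (δ s)) (w s) (w s)‖ ≤
        16 * C * H ^ 2 := by
      have := bil_le _ ((hB.btay _ m _ m').trans
        (mul_le_mul_of_nonneg_left (pow_le_pow_left₀ (norm_nonneg _) a1 2) hC))
        (hy.small s hs) (hy.small s hs)
      rw [hδ]
      refine this.trans ?_
      rw [mul_assoc]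
      exact (mul_le_of_le_one_right (by positivity) hη2).trans_eq (by ring)
    have hDn : ‖fderiv ℝ (gam G) (x s) (δ s)‖ ≤ C * (4 * H) :=
      ((fderiv ℝ (gam G) (x s)).le_opNorm _).trans (mul_le_mul (hB.dble _ m) a1' (norm_nonneg _) hC)
    have r2 := bil_le (fderiv ℝ (gam G) (x s) (δ s)) hDn a2' (hy.small s hs)
    have r3 := bil_le (fderiv ℝ (gam G) (x s) (δ s)) hDn (hx.small s hs) a2'
    have r4 := bil_le (gam G (x s)) (hB.ble _ m) a2' a2'
    have hRn : ‖R s‖ ≤ 50 * C * H ^ 2 := by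
      rw [hR, norm_neg]
      refine (norm_add₄_le).trans ?_
      have := mul_le_mul_of_nonneg_left hη1 (show 0 ≤ C * H ^ 2 by positivity)
      have : 0 ≤ C * H ^ 2 := by positivity
      linarith
    have hGR : -(200 * C ^ 2 * H ^ 3) ≤ G (x s) (R s) (δ s) := by
      have h' := bil_le (G (x s)) (hB.gle _ m) hRn a1'
      rw [Real.norm_eq_abs, abs_le] at h'
      linarith [h'.1]
    have hcurv := hcur _ m (δ s) (v s)
    -- the speeds
    obtain ⟨u, hu⟩ : ∃ u : E, u = w s + gam G (x s) (δ s) (w s) := ⟨_, rfl⟩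
    have hab : |G (x s) u u - L' ^ 2| ≤ 32 * C ^ 3 * H ^ 2 * ‖w s‖ ^ 2 := by
      have key : G (x s) u u - L' ^ 2 =
          -((G (y s) - G (x s) - fderiv ℝ G (x s) (δ s)) (w s) (w s)) +
            G (x s) (gam G (x s) (δ s) (w s)) (gam G (x s) (δ s) (w s)) := by
        rw [← hy.speed s hs, hu]
        simp only [map_add, add_apply, sub_apply, hB.compat _ m]
        ring
      have k1 := bil_le _ ((hB.gtay _ m _ m').trans
        (mul_le_mul_of_nonneg_left (pow_le_pow_left₀ (norm_nonneg _) a1 2) hC))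
        (le_refl ‖w s‖) (le_refl ‖w s‖)
      have k0 := bil_le (gam G (x s)) (hB.ble _ m) a1' (le_refl ‖w s‖)
      have k2 := bil_le (G (x s)) (hB.gle _ m) k0 k0
      rw [Real.norm_eq_abs] at k1 k2
      rw [key]
      refine (abs_add_le _ _).trans ?_
      rw [abs_neg]
      have hδs : δ s = y s - x s := by rw [hδ]
      rw [hδs] at k2 ⊢
      have : C * (16 * (H ^ 2 * ‖w s‖ ^ 2)) ≤ C ^ 3 * (16 * (H ^ 2 * ‖w s‖ ^ 2)) :=
        mul_le_mul_of_nonneg_right (le_self_pow₀ hC1 (by norm_num)) (by positivity)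
      linarith
    have hsq := sqrt_close hC1 (hB.nonneg m u) (sq_nonneg L') (norm_nonneg (w s))
      (by rw [← hy.speed s hs]; exact hB.glow _ m' _) hab
    rw [Real.sqrt_sq hy.nonneg] at hsq
    have hLv : nrm G (x s) (v s) = L := by rw [nrm, hx.speed s hs, Real.sqrt_sq hx.nonneg]
    have hz : ‖gam G (x s) (δ s) (e s)‖ ≤ C * (4 * H) * (3 * H) :=
      bil_le _ (hB.ble _ m) a1' a2'
    have hn1 : |nrm G (x s) u - L| ≤ nrm G (x s) (ξ s) + 12 * C ^ 2 * H ^ 2 := by
      have d1 : u - v s = ξ s + gam G (x s) (δ s) (e s) := by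
        rw [hu, hξ, he]
        simp only [map_sub]
        abel
      have hd3 : nrm G (x s) (v s - u) = nrm G (x s) (u - v s) := by
        rw [nrm, nrm]
        congr 1
        simp only [map_sub, sub_apply]
        ring
      have t1 := hB.nrm_add_le m (v s) (u - v s)
      have t2 := hB.nrm_add_le m u (v s - u)
      rw [add_sub_cancel, hLv] at t1 t2
      rw [hd3] at t2
      have t3 := hB.nrm_add_le m (ξ s) (gam G (x s) (δ s) (e s))
      rw [← d1] at t3
      have t4 := (hB.nrm_le m _).trans (mul_le_mul_of_nonneg_left hz hC)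
      rw [abs_le]
      constructor <;> linarith
    have hn2 : nrm G (x s) (ξ s) ≤ 7 * C ^ 2 * H := by
      refine (hB.nrm_le m _).trans ?_
      have hξn : ‖ξ s‖ ≤ 7 * C * H := by
        rw [hξ]
        refine (norm_add_le _ _).trans ?_
        have := bil_le (gam G (x s)) (hB.ble _ m) a1' (hx.small s hs)
        have := mul_le_mul_of_nonneg_left hη1 (show 0 ≤ C * (4 * H) by positivity)
        have := mul_le_mul_of_nonneg_right hC1 hH
        linarith
      exact (mul_le_mul_of_nonneg_left hξn hC).trans_eq (by ring)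
    have hdL : |L' - L| ≤ nrm G (x s) (ξ s) + 44 * C ^ 4 * H ^ 2 := by
      have t5 := abs_sub_le L' (nrm G (x s) u) L
      have t7 := abs_sub_comm L' (nrm G (x s) u)
      have t6 : |nrm G (x s) u - L'| ≤ 32 * C ^ 4 * H ^ 2 := by
        refine hsq.trans ((mul_le_of_le_one_right (by positivity)
          ((hy.small s hs).trans hη1)).trans_eq (by ring))
      have := mul_le_mul_of_nonneg_right (pow_le_pow_right₀ hC1 (show 2 ≤ 4 by norm_num))
        (sq_nonneg H)
      linarith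
    have hsqr : (L' - L) ^ 2 ≤ G (x s) (ξ s) (ξ s) + 2552 * C ^ 8 * H ^ 3 := by
      have hq : nrm G (x s) (ξ s) ^ 2 = G (x s) (ξ s) (ξ s) := Real.sq_sqrt (hB.nonneg m _)
      have := pow_le_pow_left₀ (abs_nonneg _) hdL 2
      rw [sq_abs] at this
      have q1 := mul_le_mul_of_nonneg_right hn2 (show 0 ≤ 88 * C ^ 4 * H ^ 2 by positivity)
      have q2 : C ^ 6 * H ^ 3 ≤ C ^ 8 * H ^ 3 :=
        mul_le_mul_of_nonneg_right (pow_le_pow_right₀ hC1 (by norm_num)) (by positivity)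
      have q3 : C ^ 8 * H ^ 4 ≤ C ^ 8 * H ^ 3 :=
        mul_le_mul_of_nonneg_left (pow_le_pow_of_le_one hH hH1 (by norm_num)) (by positivity)
      linarith
    have q4 := mul_le_mul_of_nonneg_right p2 (show 0 ≤ H ^ 3 by positivity)
    rw [hf2]
    simp only [map_sub, sub_apply]
    have q5 : 0 ≤ C ^ 8 * H ^ 3 := by positivity
    linarith
  have := mid_le hfd hfd2 hbound
  rw [hδ] at this
  linarith

/-- A short piece of a geodesic is not longer than its coordinate chord, to second order. -/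
theorem Bd.chord (hB : Bd G K C) (hη1 : η ≤ 1) (hx : Sol G K η x v L) {s h : ℝ} (hs : 0 ≤ s)
    (hh : 0 ≤ h) (hsh : s + h ≤ 1) :
    ‖x (s + h) - x s‖ ≤ η * h ∧
      G (x s) (x (s + h) - x s) (x (s + h) - x s) ≤ L ^ 2 * h ^ 2 + 3 * C ^ 3 * h ^ 3 := by
  have hC1 := hB.one
  have hC : 0 ≤ C := zero_le_one.trans hC1
  have hη0 : 0 ≤ η := (norm_nonneg _).trans (hx.small 0 ⟨le_rfl, zero_le_one⟩)
  have hsub : Icc s (s + h) ⊆ Icc (0 : ℝ) 1 := Icc_subset_Icc hs hsh
  have hs0 : s ∈ Icc (0 : ℝ) 1 := hsub ⟨le_rfl, by linarith⟩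
  have hend : s + h ∈ Icc s (s + h) := ⟨by linarith, le_rfl⟩
  refine ⟨(norm_image_sub_le_of_norm_deriv_le_segment' (fun r hr => (hx.dx r (hsub hr)).mono hsub)
    (fun r hr => hx.small r (hsub (Ico_subset_Icc_self hr))) _ hend).trans_eq (by ring), ?_⟩
  have hv : ∀ r ∈ Icc s (s + h), ‖v r - v s‖ ≤ C * h := by
    intro r hr
    refine (norm_image_sub_le_of_norm_deriv_le_segment' (f := v) (C := C)
      (fun z hz => (hx.dv z (hsub hz)).mono hsub) (fun z hz => ?_) r hr).trans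
      (mul_le_mul_of_nonneg_left (by linarith [hr.2]) hC)
    rw [norm_neg]
    have hz' := hsub (Ico_subset_Icc_self hz)
    refine (bil_le _ (hB.ble _ (hx.mem z hz')) (hx.small z hz') (hx.small z hz')).trans ?_
    rw [mul_assoc]
    exact mul_le_of_le_one_right hC (mul_le_one₀ hη1 hη0 hη1)
  obtain ⟨R, hR⟩ : ∃ R : E, R = x (s + h) - x s - h • v s := ⟨_, rfl⟩
  have hRn : ‖R‖ ≤ C * h * h := by
    have := norm_image_sub_le_of_norm_deriv_le_segment' (f := fun r => x r - r • v s)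
      (f' := fun r => v r - v s) (fun z hz => ((hx.dx z (hsub hz)).mono hsub).sub
        (by simpa using ((hasDerivAt_id z).smul_const (v s)).hasDerivWithinAt))
      (fun z hz => hv z (Ico_subset_Icc_self hz)) (s + h) hend
    refine le_trans (le_of_eq ?_) (this.trans_eq (by ring))
    rw [hR, add_smul]
    congr 1
    abel
  have e : x (s + h) - x s = h • v s + R := by rw [hR]; abel
  have m := hx.mem s hs0
  have b1 := bil_le (G (x s)) (hB.gle _ m) (hx.small s hs0) hRn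
  have b2 := bil_le (G (x s)) (hB.gle _ m) hRn hRn
  rw [Real.norm_eq_abs, abs_le] at b1 b2
  rw [e]
  simp only [map_add, map_smul, add_apply, smul_apply, smul_eq_mul, hx.speed s hs0,
    hB.gsymm _ m R (v s)]
  have q1 := mul_le_mul_of_nonneg_left b1.2 hh
  have q2 := mul_le_mul_of_nonneg_left hη1 (show 0 ≤ C ^ 2 * h ^ 3 by positivity)
  have q3 := mul_le_mul_of_nonneg_left (show h ≤ 1 by linarith) (show 0 ≤ C ^ 3 * h ^ 3 by positivity)
  have q4 := mul_le_mul_of_nonneg_right (pow_le_pow_right₀ hC1 (show 2 ≤ 3 by norm_num))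
    (show 0 ≤ h ^ 3 by positivity)
  linarith

end

end Vale.Agent.P255.LCN
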